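import Mathlib

/-!
Sphere immersions: a function smooth on the open interval from -τ to τ agrees on the closed
interval from -τ' to τ' (where τ' < τ) with a globally smooth function (multiply by a smooth
cutoff).  Proved by helper62 (row SPH-EXT): the cutoff is a ContDiffBump at 0 with inner radius τ'
and outer radius (τ' + τ) / 2.
-/

namespace Vale.Agent.H19.Sph

open scoped ContDiff

theorem exists_smooth_ext (f : ℝ → ℝ) (τ τ' : ℝ) (hτ' : 0 < τ') (hτ : τ' < τ)
    (hf : ContDiffOn ℝ ∞ f (Set.Ioo (-τ) τ)) :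
    ∃ F : ℝ → ℝ, ContDiff ℝ ∞ F ∧ ∀ t ∈ Set.Icc (-τ') τ', F t = f t := by
  have hmid : τ' < (τ' + τ) / 2 := by linarith
  have hmid2 : (τ' + τ) / 2 < τ := by linarith
  let b : ContDiffBump (0 : ℝ) := ⟨τ', (τ' + τ) / 2, hτ', hmid⟩
  refine ⟨fun t => b t * f t, ?_, ?_⟩
  · rw [contDiff_iff_contDiffAt]
    intro x
    by_cases hx : |x| < τ
    · have hxm : x ∈ Set.Ioo (-τ) τ := abs_lt.mp hx
      have h1 : ContDiffAt ℝ ∞ f x := hf.contDiffAt (Ioo_mem_nhds hxm.1 hxm.2)
      have h2 : ContDiffAt ℝ ∞ (fun t => b t) x := b.contDiffAt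
      exact h2.mul h1
    · have hx' : τ ≤ |x| := not_lt.mp hx
      have hopen : IsOpen {y : ℝ | (τ' + τ) / 2 < |y|} :=
        isOpen_lt continuous_const continuous_abs
      have hmem : {y : ℝ | (τ' + τ) / 2 < |y|} ∈ nhds x := hopen.mem_nhds (by
        show (τ' + τ) / 2 < |x|
        linarith)
      have hev : (fun t => b t * f t) =ᶠ[nhds x] fun _ => (0 : ℝ) := by
        filter_upwards [hmem] with y hy
        have hb : b y = 0 := by
          apply b.zero_of_le_dist
          rw [Real.dist_eq, sub_zero]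
          exact le_of_lt hy
        rw [hb, zero_mul]
      exact contDiffAt_const.congr_of_eventuallyEq hev
  · intro t ht
    have hb : b t = 1 := by
      apply b.one_of_mem_closedBall
      rw [Metric.mem_closedBall, Real.dist_eq, sub_zero]
      exact abs_le.mpr ht
    show b t * f t = f t
    rw [hb, one_mul]

end Vale.Agent.H19.Sph
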