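import Mathlib

/-!
Sphere immersions (weights `(1, 2)`): the polynomial identity behind the pole germ.

With `h = 1 + t k`, `W̃ = 3 k + t (k'/3 - 4 k²) + ω₂ t²`, `W = t W̃`, `Ẇ = W̃ + t W̃'` and
`gp = h + 2 t h'`, the numerator of the defect is divisible by `t³`.
-/

namespace Vale.Agent.H19.Sph

/-- Coefficient of `t ^ 0` in `Ntilde`. -/
noncomputable def NtC0 (k k1 k2 om2 : ℝ) : ℝ :=
    -(100 / 9) * k1 ^ 2 + 48 * k * om2 + 4 * k * k2 - (64 / 3) * k ^ 2 * k1 - 304 * k ^ 4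

/-- Coefficient of `t ^ 1` in `Ntilde`. -/
noncomputable def NtC1 (k k1 k2 om2 : ℝ) : ℝ :=
    -8 * k1 * om2 - (16 / 9) * k1 * k2 - (56 / 9) * k * k1 ^ 2 - 168 * k ^ 2 * om2
    - (56 / 3) * k ^ 2 * k2 - (800 / 3) * k ^ 3 * k1 + 1360 * k ^ 5

/-- Coefficient of `t ^ 2` in `Ntilde`. -/
noncomputable def NtC2 (k k1 k2 om2 : ℝ) : ℝ :=
    12 * om2 ^ 2 - (1 / 9) * k2 ^ 2 - (32 / 9) * k1 ^ 3 - 120 * k * k1 * om2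
    - (116 / 9) * k * k1 * k2 - (376 / 9) * k ^ 2 * k1 ^ 2 - 216 * k ^ 3 * om2
    + (20 / 3) * k ^ 3 * k2 + (5648 / 3) * k ^ 4 * k1 - 1360 * k ^ 6

/-- Coefficient of `t ^ 3` in `Ntilde`. -/
noncomputable def NtC3 (k k1 k2 om2 : ℝ) : ℝ :=
    -(64 / 3) * k1 ^ 2 * om2 - (4 / 3) * k1 ^ 2 * k2 - 192 * k * om2 ^ 2 - 32 * k * k2 * om2
    - (11 / 9) * k * k2 ^ 2 - (88 / 3) * k * k1 ^ 3 - 432 * k ^ 2 * k1 * om2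
    - (52 / 9) * k ^ 2 * k1 * k2 + (2000 / 3) * k ^ 3 * k1 ^ 2 + 2208 * k ^ 4 * om2
    + (448 / 3) * k ^ 4 * k2 - 1088 * k ^ 5 * k1 - 3600 * k ^ 7

/-- Coefficient of `t ^ 4` in `Ntilde`. -/
noncomputable def NtC4 (k k1 k2 om2 : ℝ) : ℝ :=
    -48 * k1 * om2 ^ 2 - (20 / 3) * k1 * k2 * om2 - (1 / 9) * k1 * k2 ^ 2 - (20 / 9) * k1 ^ 4
    - (568 / 3) * k * k1 ^ 2 * om2 - (64 / 9) * k * k1 ^ 2 * k2 - 348 * k ^ 2 * om2 ^ 2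
    - 36 * k ^ 2 * k2 * om2 - (7 / 9) * k ^ 2 * k2 ^ 2 + (416 / 9) * k ^ 2 * k1 ^ 3
    + 2192 * k ^ 3 * k1 * om2 + 136 * k ^ 3 * k1 * k2 + 432 * k ^ 4 * k1 ^ 2 + 240 * k ^ 5 * om2
    - 40 * k ^ 5 * k2 - 7440 * k ^ 6 * k1 + 4800 * k ^ 8

/-- Coefficient of `t ^ 5` in `Ntilde`. -/
noncomputable def NtC5 (k k1 k2 om2 : ℝ) : ℝ :=
    -48 * om2 ^ 3 - 8 * k2 * om2 ^ 2 - (1 / 3) * k2 ^ 2 * om2 - (56 / 3) * k1 ^ 3 * om2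
    - (4 / 9) * k1 ^ 3 * k2 - 352 * k * k1 * om2 ^ 2 - 28 * k * k1 * k2 * om2
    - (2 / 9) * k * k1 * k2 ^ 2 - (68 / 9) * k * k1 ^ 4 + (680 / 3) * k ^ 2 * k1 ^ 2 * om2
    + (92 / 9) * k ^ 2 * k1 ^ 2 * k2 + 732 * k ^ 3 * om2 ^ 2 + 84 * k ^ 3 * k2 * om2
    + (5 / 3) * k ^ 3 * k2 ^ 2 + (1040 / 3) * k ^ 3 * k1 ^ 3 + 1856 * k ^ 4 * k1 * om2
    + (8 / 3) * k ^ 4 * k1 * k2 - 4288 * k ^ 5 * k1 ^ 2 - 4080 * k ^ 6 * om2 - 160 * k ^ 6 * k2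
    + 7680 * k ^ 7 * k1

/-- Coefficient of `t ^ 6` in `Ntilde`. -/
noncomputable def NtC6 (k k1 k2 om2 : ℝ) : ℝ :=
    -52 * k1 ^ 2 * om2 ^ 2 - (8 / 3) * k1 ^ 2 * k2 * om2 - (4 / 9) * k1 ^ 5 - 144 * k * om2 ^ 3
    - 20 * k * k2 * om2 ^ 2 - (2 / 3) * k * k2 ^ 2 * om2 - (160 / 3) * k * k1 ^ 3 * om2
    - (4 / 9) * k * k1 ^ 3 * k2 + 228 * k ^ 2 * k1 * om2 ^ 2 + (80 / 3) * k ^ 2 * k1 * k2 * om2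
    - (1 / 9) * k ^ 2 * k1 * k2 ^ 2 + (80 / 3) * k ^ 2 * k1 ^ 4 + 1408 * k ^ 3 * k1 ^ 2 * om2
    + 16 * k ^ 3 * k1 ^ 2 * k2 + 1152 * k ^ 4 * om2 ^ 2 + 88 * k ^ 4 * k2 * om2
    + (4 / 3) * k ^ 4 * k2 ^ 2 - 512 * k ^ 4 * k1 ^ 3 - 5184 * k ^ 5 * k1 * om2
    - 128 * k ^ 5 * k1 * k2 + 3072 * k ^ 6 * k1 ^ 2

/-- Coefficient of `t ^ 7` in `Ntilde`. -/
noncomputable def NtC7 (k k1 k2 om2 : ℝ) : ℝ :=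
    -48 * k1 * om2 ^ 3 - 4 * k1 * k2 * om2 ^ 2 - 4 * k1 ^ 4 * om2 - 116 * k * k1 ^ 2 * om2 ^ 2
    - (8 / 3) * k * k1 ^ 2 * k2 * om2 - 108 * k ^ 2 * om2 ^ 3 - 12 * k ^ 2 * k2 * om2 ^ 2
    - (1 / 3) * k ^ 2 * k2 ^ 2 * om2 + 160 * k ^ 2 * k1 ^ 3 * om2 + 1104 * k ^ 3 * k1 * om2 ^ 2
    + 48 * k ^ 3 * k1 * k2 * om2 - 1536 * k ^ 4 * k1 ^ 2 * om2

/-- Coefficient of `t ^ 8` in `Ntilde`. -/
noncomputable def NtC8 (k k1 k2 om2 : ℝ) : ℝ :=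
    -12 * k1 ^ 3 * om2 ^ 2 - 72 * k * k1 * om2 ^ 3 - 4 * k * k1 * k2 * om2 ^ 2
    + 240 * k ^ 2 * k1 ^ 2 * om2 ^ 2

/-- Coefficient of `t ^ 9` in `Ntilde`. -/
noncomputable def NtC9 (k k1 k2 om2 : ℝ) : ℝ :=
    -12 * k1 ^ 2 * om2 ^ 3

/-- The cofactor of `t ^ 3` in the numerator of the defect of the pole germ. -/
noncomputable def Ntilde (t k k1 k2 om2 : ℝ) : ℝ :=
  NtC0 k k1 k2 om2 + t * NtC1 k k1 k2 om2 + t ^ 2 * NtC2 k k1 k2 om2 + t ^ 3 * NtC3 k k1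
    k2 om2 + t ^ 4 * NtC4 k k1 k2 om2 + t ^ 5 * NtC5 k k1 k2 om2 + t ^ 6 * NtC6 k k1 k2
    om2 + t ^ 7 * NtC7 k k1 k2 om2 + t ^ 8 * NtC8 k k1 k2 om2 + t ^ 9 * NtC9 k k1 k2 om2

theorem Ntilde_zero (k k1 k2 om2 : ℝ) :
    Ntilde 0 k k1 k2 om2
      = 48 * k * om2 + 4 * k * k2 - 64 / 3 * k ^ 2 * k1 - 304 * k ^ 4 - 100 / 9 * k1 ^ 2 := by
  unfold Ntilde NtC0
  ring

/-- The numerator identity. Here `Wt = 3 k + t (k1 / 3 - 4 k ^ 2) + om2 t ^ 2` and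
`Wtp = 3 k1 + (k1 / 3 - 4 k ^ 2) + t (k2 / 3 - 8 k k1) + 2 om2 t` is its derivative. -/
theorem numD_eq (t k k1 k2 om2 : ℝ) :
    4 * (3 * k + t * (k1 / 3 - 4 * k ^ 2) + om2 * t ^ 2)
          * (1 - t * (3 * k + t * (k1 / 3 - 4 * k ^ 2) + om2 * t ^ 2))
          * (1 - ((1 + t * k) + 2 * t * (k + t * k1)) ^ 2
                * (1 - 3 / 4 * (t * (3 * k + t * (k1 / 3 - 4 * k ^ 2) + om2 * t ^ 2)))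
              + 3 / 2 * t * (1 + t * k) * ((1 + t * k) + 2 * t * (k + t * k1))
                * ((3 * k + t * (k1 / 3 - 4 * k ^ 2) + om2 * t ^ 2)
                  + t * (3 * k1 + (k1 / 3 - 4 * k ^ 2) + t * (k2 / 3 - 8 * k * k1)
                    + 2 * om2 * t)))
        - t * (1 + t * k) ^ 2
          * ((3 * k + t * (k1 / 3 - 4 * k ^ 2) + om2 * t ^ 2)
              + t * (3 * k1 + (k1 / 3 - 4 * k ^ 2) + t * (k2 / 3 - 8 * k * k1) + 2 * om2 * t)) ^ 2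
          * (1 + 3 * (t * (3 * k + t * (k1 / 3 - 4 * k ^ 2) + om2 * t ^ 2)))
      = t ^ 3 * Ntilde t k k1 k2 om2 := by
  unfold Ntilde NtC0 NtC1 NtC2 NtC3 NtC4 NtC5 NtC6 NtC7 NtC8 NtC9
  ring

end Vale.Agent.H19.Sph
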