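import Vale.Agent.H19.Sph.Defs

/-!
Sphere immersions: the three metric identities for the profile components, pointwise.

Sketch. With `ρ₁ = g √(1 - w)`, `ρ₂ = (g / 2) √w` (differentiable at `s` as `0 < w s < 1`):
`ρ₁'² + ρ₂'² = 1 - D` where `D = Dex (g s) gp (w s) wp`; `b1 = ρ₁ cos φ₁`, `b2 = ρ₁ sin φ₁`,
`d1 = ρ₂ cos φ₂`, `d2 = ρ₂ sin φ₂`; `b1'² + b2'² = ρ₁'² + ρ₁² φ₁'²`,
`b1 b2' - b2 b1' = ρ₁² φ₁'`, etc.; `ρ₁² φ₁'² = (1 - w) (D w / (1 - w)) = D w`,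
`ρ₂² φ₂'² = D (1 - w)`, `ρ₁² φ₁' = -g √(D w (1 - w))`, `2 ρ₂² φ₂' = g √(D w (1 - w))`.
-/

namespace Vale.Agent.H19.Sph

open scoped ContDiff

theorem int_alg (g w φ1 φ2 : ℝ → ℝ) (s gp wp : ℝ)
    (hg : HasDerivAt g gp s) (hw : HasDerivAt w wp s)
    (gpos : 0 < g s) (w0 : 0 < w s) (w1 : w s < 1)
    (hD : 0 < Dex (g s) gp (w s) wp)
    (hφ1 : HasDerivAt φ1 (-(Real.sqrt (Dex (g s) gp (w s) wp * w s / (1 - w s)) / g s)) s)
    (hφ2 : HasDerivAt φ2 (2 * Real.sqrt (Dex (g s) gp (w s) wp * (1 - w s) / w s) / g s) s) :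
    deriv (bC g w φ1) s ^ 2 + deriv (bS g w φ1) s ^ 2 + deriv (dC g w φ2) s ^ 2
        + deriv (dS g w φ2) s ^ 2 = 1 ∧
      (bC g w φ1 s * deriv (bS g w φ1) s - bS g w φ1 s * deriv (bC g w φ1) s)
        + 2 * (dC g w φ2 s * deriv (dS g w φ2) s - dS g w φ2 s * deriv (dC g w φ2) s) = 0 ∧
      (bC g w φ1 s ^ 2 + bS g w φ1 s ^ 2) + 4 * (dC g w φ2 s ^ 2 + dS g w φ2 s ^ 2)
        = g s ^ 2 := by
  have hW1 : 0 < 1 - w s := by linarith
  have hsa : HasDerivAt (fun x => Real.sqrt (1 - w x)) (-wp / (2 * Real.sqrt (1 - w s))) s :=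
    (hw.const_sub 1).sqrt hW1.ne'
  have hsb : HasDerivAt (fun x => Real.sqrt (w x)) (wp / (2 * Real.sqrt (w s))) s :=
    hw.sqrt w0.ne'
  have hr1 := hg.mul hsa
  have hr2 := (hg.div_const 2).mul hsb
  have hbC := hr1.mul hφ1.cos
  have hbS := hr1.mul hφ1.sin
  have hdC := hr2.mul hφ2.cos
  have hdS := hr2.mul hφ2.sin
  have ebC : deriv (bC g w φ1) s = _ := hbC.deriv
  have ebS : deriv (bS g w φ1) s = _ := hbS.deriv
  have edC : deriv (dC g w φ2) s = _ := hdC.deriv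
  have edS : deriv (dS g w φ2) s = _ := hdS.deriv
  rw [ebC, ebS, edC, edS]
  simp only [bC, bS, dC, dS, Pi.mul_apply]
  clear ebC ebS edC edS hbC hbS hdC hdS hr1 hr2 hsa hsb hφ1 hφ2 hg hw
  have ha2 : Real.sqrt (1 - w s) ^ 2 = 1 - w s := Real.sq_sqrt hW1.le
  have hb2 : Real.sqrt (w s) ^ 2 = w s := Real.sq_sqrt w0.le
  have hapos : 0 < Real.sqrt (1 - w s) := Real.sqrt_pos.mpr hW1
  have hbpos : 0 < Real.sqrt (w s) := Real.sqrt_pos.mpr w0
  have hq1sq : Real.sqrt (Dex (g s) gp (w s) wp * w s / (1 - w s)) ^ 2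
      = Dex (g s) gp (w s) wp * w s / (1 - w s) :=
    Real.sq_sqrt (div_nonneg (mul_nonneg hD.le w0.le) hW1.le)
  have hq2sq : Real.sqrt (Dex (g s) gp (w s) wp * (1 - w s) / w s) ^ 2
      = Dex (g s) gp (w s) wp * (1 - w s) / w s :=
    Real.sq_sqrt (div_nonneg (mul_nonneg hD.le hW1.le) w0.le)
  have hq1n : 0 ≤ Real.sqrt (Dex (g s) gp (w s) wp * w s / (1 - w s)) := Real.sqrt_nonneg _
  have hq2n : 0 ≤ Real.sqrt (Dex (g s) gp (w s) wp * (1 - w s) / w s) := Real.sqrt_nonneg _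
  have hsc1 : Real.sin (φ1 s) ^ 2 + Real.cos (φ1 s) ^ 2 = 1 := Real.sin_sq_add_cos_sq _
  have hsc2 : Real.sin (φ2 s) ^ 2 + Real.cos (φ2 s) ^ 2 = 1 := Real.sin_sq_add_cos_sq _
  generalize Real.sqrt (Dex (g s) gp (w s) wp * w s / (1 - w s)) = q1 at *
  generalize Real.sqrt (Dex (g s) gp (w s) wp * (1 - w s) / w s) = q2 at *
  generalize Real.sqrt (1 - w s) = a at *
  generalize Real.sqrt (w s) = b at *
  generalize Real.sin (φ1 s) = s1 at *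
  generalize Real.cos (φ1 s) = c1 at *
  generalize Real.sin (φ2 s) = s2 at *
  generalize Real.cos (φ2 s) = c2 at *
  generalize g s = G at *
  generalize w s = W at *
  have hGne : G ≠ 0 := gpos.ne'
  have hWne : W ≠ 0 := w0.ne'
  have h1W : 1 - W ≠ 0 := hW1.ne'
  have hane : a ≠ 0 := hapos.ne'
  have hbne : b ≠ 0 := hbpos.ne'
  have hq12 : (1 - W) * q1 = W * q2 := by
    have h1 : ((1 - W) * q1) ^ 2 = (W * q2) ^ 2 := by
      rw [mul_pow, mul_pow, hq1sq, hq2sq]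
      field_simp
    have h2 : 0 ≤ (1 - W) * q1 := mul_nonneg hW1.le hq1n
    have h3 : 0 ≤ W * q2 := mul_nonneg w0.le hq2n
    have h4 := congrArg Real.sqrt h1
    rwa [Real.sqrt_sq h2, Real.sqrt_sq h3] at h4
  have k1 : G * a * (-s1 * -(q1 / G)) = a * q1 * s1 := by field_simp
  have k2 : G * a * (c1 * -(q1 / G)) = -(a * q1 * c1) := by field_simp
  have k3 : G / 2 * b * (-s2 * (2 * q2 / G)) = -(b * q2 * s2) := by field_simp
  have k4 : G / 2 * b * (c2 * (2 * q2 / G)) = b * q2 * c2 := by field_simp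
  rw [k1, k2, k3, k4]
  refine ⟨?_, ?_, ?_⟩
  · have e1 : ((gp * a + G * (-wp / (2 * a))) * c1 + a * q1 * s1) ^ 2
        + ((gp * a + G * (-wp / (2 * a))) * s1 + -(a * q1 * c1)) ^ 2
        = (gp * a + G * (-wp / (2 * a))) ^ 2 + a ^ 2 * q1 ^ 2 := by
      linear_combination ((gp * a + G * (-wp / (2 * a))) ^ 2 + a ^ 2 * q1 ^ 2) * hsc1
    have e2 : ((gp / 2 * b + G / 2 * (wp / (2 * b))) * c2 + -(b * q2 * s2)) ^ 2
        + ((gp / 2 * b + G / 2 * (wp / (2 * b))) * s2 + b * q2 * c2) ^ 2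
        = (gp / 2 * b + G / 2 * (wp / (2 * b))) ^ 2 + b ^ 2 * q2 ^ 2 := by
      linear_combination ((gp / 2 * b + G / 2 * (wp / (2 * b))) ^ 2 + b ^ 2 * q2 ^ 2) * hsc2
    have e3 : a ^ 2 * q1 ^ 2 = Dex G gp W wp * W := by
      rw [ha2, hq1sq]
      field_simp
    have e4 : b ^ 2 * q2 ^ 2 = Dex G gp W wp * (1 - W) := by
      rw [hb2, hq2sq]
      field_simp
    have e5 : (gp * a + G * (-wp / (2 * a))) ^ 2
        = gp ^ 2 * (1 - W) - gp * G * wp + G ^ 2 * wp ^ 2 / (4 * (1 - W)) := by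
      have e : (gp * a + G * (-wp / (2 * a))) ^ 2
          = gp ^ 2 * a ^ 2 - gp * G * wp + G ^ 2 * wp ^ 2 / (4 * a ^ 2) := by
        field_simp
        ring
      rw [e, ha2]
    have e6 : (gp / 2 * b + G / 2 * (wp / (2 * b))) ^ 2
        = gp ^ 2 * W / 4 + gp * G * wp / 4 + G ^ 2 * wp ^ 2 / (16 * W) := by
      have e : (gp / 2 * b + G / 2 * (wp / (2 * b))) ^ 2
          = gp ^ 2 * b ^ 2 / 4 + gp * G * wp / 4 + G ^ 2 * wp ^ 2 / (16 * b ^ 2) := by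
        field_simp
        ring
      rw [e, hb2]
    have e7 : gp ^ 2 * (1 - W) - gp * G * wp + G ^ 2 * wp ^ 2 / (4 * (1 - W))
        + Dex G gp W wp * W
        + (gp ^ 2 * W / 4 + gp * G * wp / 4 + G ^ 2 * wp ^ 2 / (16 * W)
        + Dex G gp W wp * (1 - W)) = 1 := by
      unfold Dex
      field_simp
      ring
    calc _ = ((gp * a + G * (-wp / (2 * a))) ^ 2 + a ^ 2 * q1 ^ 2)
          + ((gp / 2 * b + G / 2 * (wp / (2 * b))) ^ 2 + b ^ 2 * q2 ^ 2) := by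
          rw [← e1, ← e2]
          ring
      _ = 1 := by
          rw [e3, e4, e5, e6]
          exact e7
  · linear_combination (-G * a ^ 2 * q1) * hsc1 + (G * b ^ 2 * q2) * hsc2 + (-G * q1) * ha2
      + (G * q2) * hb2 + (-G) * hq12
  · linear_combination (G ^ 2 * a ^ 2) * hsc1 + (G ^ 2 * b ^ 2) * hsc2 + G ^ 2 * ha2
      + G ^ 2 * hb2

end Vale.Agent.H19.Sph
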