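import Mathlib

/-!
Sphere immersions: a primitive of a function that is smooth on an open interval.
-/

namespace Vale.Agent.H19.Sph

open scoped ContDiff

theorem exists_prim_on (ψ : ℝ → ℝ) (a b : ℝ) (hab : a < b)
    (hψ : ContDiffOn ℝ ∞ ψ (Set.Ioo a b)) :
    ∃ φ : ℝ → ℝ, ContDiffOn ℝ ∞ φ (Set.Ioo a b) ∧ ∀ s ∈ Set.Ioo a b, HasDerivAt φ (ψ s) s := by
  have hc : (a + b) / 2 ∈ Set.Ioo a b := ⟨by linarith, by linarith⟩
  have hcont : ContinuousOn ψ (Set.Ioo a b) := hψ.continuousOn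
  have hderiv : ∀ s ∈ Set.Ioo a b,
      HasDerivAt (fun u => ∫ t in (a + b) / 2..u, ψ t) (ψ s) s := by
    intro s hs
    have hsub : Set.uIcc ((a + b) / 2) s ⊆ Set.Ioo a b :=
      Set.ordConnected_Ioo.uIcc_subset hc hs
    have hint : IntervalIntegrable ψ MeasureTheory.volume ((a + b) / 2) s :=
      (hcont.mono hsub).intervalIntegrable
    have hmeas : StronglyMeasurableAtFilter ψ (nhds s) MeasureTheory.volume :=
      hcont.stronglyMeasurableAtFilter isOpen_Ioo s hs
    have hcs : ContinuousAt ψ s := hcont.continuousAt (Ioo_mem_nhds hs.1 hs.2)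
    exact intervalIntegral.integral_hasDerivAt_right hint hmeas hcs
  refine ⟨fun u => ∫ t in (a + b) / 2..u, ψ t, ?_, hderiv⟩
  rw [contDiffOn_infty_iff_deriv_of_isOpen isOpen_Ioo]
  refine ⟨fun s hs => (hderiv s hs).differentiableAt.differentiableWithinAt, ?_⟩
  exact hψ.congr fun s hs => (hderiv s hs).deriv

end Vale.Agent.H19.Sph
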