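import Vale.Agent.H19.Sph.Ext
import Vale.Agent.H19.Sph.Prim

/-!
Sphere immersions: a phase whose derivative is `2 s F(s²)` on `(0, s0)` is a smooth function of
`s²` there.

Sketch. `G₀` a primitive of `F` on `(-τ, τ)` (`exists_prim_on`); `s ↦ φ s - G₀ (s²)` has zero
derivative on `(0, s0)`, hence is a constant `c` there; extend `t ↦ c + G₀ t` from
`[-s0², s0²]` to a globally smooth function (`exists_smooth_ext`).
-/

namespace Vale.Agent.H19.Sph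

open scoped ContDiff

theorem phase_rep (F φ : ℝ → ℝ) (τ s0 : ℝ) (hs0 : 0 < s0) (hs0τ : s0 ^ 2 < τ)
    (hF : ContDiffOn ℝ ∞ F (Set.Ioo (-τ) τ))
    (hφ : ∀ s, 0 < s → s < s0 → HasDerivAt φ (2 * s * F (s ^ 2)) s) :
    ∃ G : ℝ → ℝ, ContDiff ℝ ∞ G ∧ ∀ s, 0 < s → s < s0 → φ s = G (s ^ 2) := by
  have hs0sq : (0 : ℝ) < s0 ^ 2 := by positivity
  have hτ : 0 < τ := lt_trans hs0sq hs0τ
  obtain ⟨G0, hG0s, hG0d⟩ := exists_prim_on F (-τ) τ (by linarith) hF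
  have hsq : ∀ s, 0 < s → s < s0 → 0 < s ^ 2 ∧ s ^ 2 < s0 ^ 2 := by
    intro s h0 h1
    refine ⟨by positivity, ?_⟩
    nlinarith
  have hder : ∀ s ∈ Set.Ioo (0 : ℝ) s0, HasDerivAt (fun x => φ x - G0 (x ^ 2)) 0 s := by
    intro s hs
    have h1 : HasDerivAt (fun x : ℝ => x ^ 2) (2 * s) s := by
      simpa using hasDerivAt_pow 2 s
    have hmem : s ^ 2 ∈ Set.Ioo (-τ) τ := by
      obtain ⟨h5, h6⟩ := hsq s hs.1 hs.2
      exact ⟨by linarith, by linarith⟩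
    have h2 : HasDerivAt (fun x => G0 (x ^ 2)) (F (s ^ 2) * (2 * s)) s :=
      HasDerivAt.comp (h₂ := G0) (h := fun x : ℝ => x ^ 2) s (hG0d (s ^ 2) hmem) h1
    have h3 : HasDerivAt (fun x => φ x - G0 (x ^ 2))
        (2 * s * F (s ^ 2) - F (s ^ 2) * (2 * s)) s := (hφ s hs.1 hs.2).sub h2
    have h4 : 2 * s * F (s ^ 2) - F (s ^ 2) * (2 * s) = 0 := by ring
    rw [h4] at h3
    exact h3
  have hmid : s0 / 2 ∈ Set.Ioo (0 : ℝ) s0 := ⟨by linarith, by linarith⟩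
  have hconst : ∀ s ∈ Set.Ioo (0 : ℝ) s0,
      φ s - G0 (s ^ 2) = φ (s0 / 2) - G0 ((s0 / 2) ^ 2) := by
    intro s hs
    have h := Convex.norm_image_sub_le_of_norm_hasDerivWithin_le
      (f := fun x => φ x - G0 (x ^ 2)) (f' := fun _ => (0 : ℝ)) (C := 0)
      (s := Set.Ioo (0 : ℝ) s0) (fun x hx => (hder x hx).hasDerivWithinAt)
      (fun x _ => by simp) (convex_Ioo 0 s0) hmid hs
    have h' : ‖(φ s - G0 (s ^ 2)) - (φ (s0 / 2) - G0 ((s0 / 2) ^ 2))‖ ≤ 0 := by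
      simpa using h
    exact sub_eq_zero.1 (norm_le_zero_iff.1 h')
  obtain ⟨G, hGs, hGe⟩ := exists_smooth_ext
    (fun t => (φ (s0 / 2) - G0 ((s0 / 2) ^ 2)) + G0 t) τ (s0 ^ 2) hs0sq hs0τ
    (contDiffOn_const.add hG0s)
  refine ⟨G, hGs, fun s h0 h1 => ?_⟩
  obtain ⟨h5, h6⟩ := hsq s h0 h1
  have hmem : s ^ 2 ∈ Set.Icc (-(s0 ^ 2)) (s0 ^ 2) := ⟨by linarith, h6.le⟩
  rw [hGe _ hmem]
  have h7 := hconst s ⟨h0, h1⟩
  linarith

end Vale.Agent.H19.Sph
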