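import Vale.Agent.H19.Sph.Defs
import Vale.Agent.H19.Sph.Phase

/-!
Sphere immersions: near a pole the profile components are `s a(s²)` and `s² c(s²)` with
globally smooth `a`, `c`.

Sketch. Write `t = s²`, `h t = 1 + t k t`, `W t = t Wt t`; on `(-τ, τ)`: `h > 0`, `Wt > 0`,
`W < 1`, `Q > 0`. For `0 < s < s0`: `w s = W t ∈ (0, 1)`,
`√(s⁶ Q w / (1 - w)) / g = s³ F₁(t)` with `F₁ = √(Q Wt / (1 - W)) / h`, and
`2 √(s⁶ Q (1 - w) / w) / g = 2 s F₂(t)` with `F₂ = √(Q (1 - W) / Wt) / h`. So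
`φ1' = 2 s (-(σ / 2) t F₁(t))` and `φ2' = 2 s (σ F₂(t))`; by `phase_rep`, `φ1 s = G₁(s²)` and
`φ2 s = G₂(s²)` with `G₁`, `G₂` globally smooth. Then
`bC g w φ1 s = s (h √(1 - W) cos G₁)(t)`, `dC g w φ2 s = s² ((h / 2) √Wt cos G₂)(t)` (as
`√(s² Wt) = s √Wt`), etc.; extend `h √(1 - W)` and `(h / 2) √Wt` from `[-s0², s0²]` to globally
smooth functions by `exists_smooth_ext`.
-/

namespace Vale.Agent.H19.Sph

open scoped ContDiff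

/-- SPH-POLE helper: `s² ∈ (-τ, τ)` and `s² ∈ [-s0², s0²]` for `0 < s < s0`, `s0² < τ`. -/
theorem pole_mem (τ s0 s : ℝ) (hs0τ : s0 ^ 2 < τ) (hs : 0 < s) (hs' : s < s0) :
    s ^ 2 ∈ Set.Ioo (-τ) τ ∧ s ^ 2 ∈ Set.Icc (-(s0 ^ 2)) (s0 ^ 2) := by
  have h1 : s ^ 2 < s0 ^ 2 := by nlinarith
  have h2 : 0 < s ^ 2 := by positivity
  exact ⟨⟨by linarith, by linarith⟩, ⟨by linarith, by linarith⟩⟩

/-- SPH-POLE helper: the first phase derivative in the form `2 s F(s²)`. -/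
theorem pole_phase1 (k Wt Q : ℝ → ℝ) (σ s : ℝ) (hs : 0 < s)
    (hh : 0 < 1 + s ^ 2 * k (s ^ 2)) :
    σ * -(Real.sqrt (s ^ 6 * Q (s ^ 2) * wG Wt s / (1 - wG Wt s)) / gvG k s) =
      2 * s * (-(σ / 2) * s ^ 2 * (Real.sqrt (Q (s ^ 2) * Wt (s ^ 2) /
        (1 - s ^ 2 * Wt (s ^ 2))) / (1 + s ^ 2 * k (s ^ 2)))) := by
  unfold gvG wG
  have e1 : s ^ 6 * Q (s ^ 2) * (s ^ 2 * Wt (s ^ 2)) / (1 - s ^ 2 * Wt (s ^ 2)) =
      (s ^ 4) ^ 2 * (Q (s ^ 2) * Wt (s ^ 2) / (1 - s ^ 2 * Wt (s ^ 2))) := by ring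
  rw [e1, Real.sqrt_mul (sq_nonneg _), Real.sqrt_sq (by positivity)]
  have hh' := hh.ne'
  have hs' := hs.ne'
  field_simp

/-- SPH-POLE helper: the second phase derivative in the form `2 s F(s²)`. -/
theorem pole_phase2 (k Wt Q : ℝ → ℝ) (σ s : ℝ) (hs : 0 < s)
    (hh : 0 < 1 + s ^ 2 * k (s ^ 2)) (hW : 0 < Wt (s ^ 2)) :
    σ * (2 * Real.sqrt (s ^ 6 * Q (s ^ 2) * (1 - wG Wt s) / wG Wt s) / gvG k s) =
      2 * s * (σ * (Real.sqrt (Q (s ^ 2) * (1 - s ^ 2 * Wt (s ^ 2)) / Wt (s ^ 2)) /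
        (1 + s ^ 2 * k (s ^ 2)))) := by
  unfold gvG wG
  have hs' := hs.ne'
  have hW' := hW.ne'
  have e1 : s ^ 6 * Q (s ^ 2) * (1 - s ^ 2 * Wt (s ^ 2)) / (s ^ 2 * Wt (s ^ 2)) =
      (s ^ 2) ^ 2 * (Q (s ^ 2) * (1 - s ^ 2 * Wt (s ^ 2)) / Wt (s ^ 2)) := by
    field_simp
  rw [e1, Real.sqrt_mul (sq_nonneg _), Real.sqrt_sq (by positivity)]
  have hh' := hh.ne'
  field_simp

theorem pole_rep (k Wt Q : ℝ → ℝ) (τ cN : ℝ) (sk : ContDiff ℝ ∞ k)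
    (hG : PoleGerm k Wt Q τ cN) (g w φ1 φ2 : ℝ → ℝ) (σ s0 : ℝ) (hs0 : 0 < s0)
    (hs0τ : s0 ^ 2 < τ)
    (hg : ∀ s, 0 < s → s < s0 → g s = gvG k s)
    (hw : ∀ s, 0 < s → s < s0 → w s = wG Wt s)
    (hφ1 : ∀ s, 0 < s → s < s0 →
      HasDerivAt φ1 (σ * -(Real.sqrt (s ^ 6 * Q (s ^ 2) * w s / (1 - w s)) / g s)) s)
    (hφ2 : ∀ s, 0 < s → s < s0 →
      HasDerivAt φ2 (σ * (2 * Real.sqrt (s ^ 6 * Q (s ^ 2) * (1 - w s) / w s) / g s)) s) :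
    ∃ a1 a2 c1 c2 : ℝ → ℝ, ContDiff ℝ ∞ a1 ∧ ContDiff ℝ ∞ a2 ∧ ContDiff ℝ ∞ c1 ∧
      ContDiff ℝ ∞ c2 ∧
      ∀ s, 0 < s → s < s0 →
        bC g w φ1 s = s * a1 (s ^ 2) ∧ bS g w φ1 s = s * a2 (s ^ 2) ∧
        dC g w φ2 s = s ^ 2 * c1 (s ^ 2) ∧ dS g w φ2 s = s ^ 2 * c2 (s ^ 2) := by
  obtain ⟨_τpos, _cNpos, sWt, sQ, hpos, _hle, Wpos, Wlt, Qpos, _hD, _hN⟩ := hG
  -- smooth pieces
  have sh : ContDiff ℝ ∞ (fun t : ℝ => 1 + t * k t) := contDiff_const.add (contDiff_id.mul sk)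
  have s1W : ContDiff ℝ ∞ (fun t : ℝ => 1 - t * Wt t) :=
    contDiff_const.sub (contDiff_id.mul sWt)
  have h1W : ∀ t ∈ Set.Ioo (-τ) τ, 0 < 1 - t * Wt t := fun t ht => by
    have := Wlt t ht
    linarith
  have sX1 : ContDiffOn ℝ ∞ (fun t : ℝ => Q t * Wt t / (1 - t * Wt t)) (Set.Ioo (-τ) τ) :=
    (sQ.mul sWt.contDiffOn).div s1W.contDiffOn (fun t ht => (h1W t ht).ne')
  have X1pos : ∀ t ∈ Set.Ioo (-τ) τ, 0 < Q t * Wt t / (1 - t * Wt t) := fun t ht =>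
    div_pos (mul_pos (Qpos t ht) (Wpos t ht)) (h1W t ht)
  have sF1 : ContDiffOn ℝ ∞ (fun t : ℝ => -(σ / 2) * t *
      (Real.sqrt (Q t * Wt t / (1 - t * Wt t)) / (1 + t * k t))) (Set.Ioo (-τ) τ) :=
    (contDiffOn_const.mul contDiffOn_id).mul
      ((sX1.sqrt (fun t ht => (X1pos t ht).ne')).div sh.contDiffOn
        (fun t ht => (hpos t ht).ne'))
  have sX2 : ContDiffOn ℝ ∞ (fun t : ℝ => Q t * (1 - t * Wt t) / Wt t) (Set.Ioo (-τ) τ) :=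
    (sQ.mul s1W.contDiffOn).div sWt.contDiffOn (fun t ht => (Wpos t ht).ne')
  have X2pos : ∀ t ∈ Set.Ioo (-τ) τ, 0 < Q t * (1 - t * Wt t) / Wt t := fun t ht =>
    div_pos (mul_pos (Qpos t ht) (h1W t ht)) (Wpos t ht)
  have sF2 : ContDiffOn ℝ ∞ (fun t : ℝ => σ *
      (Real.sqrt (Q t * (1 - t * Wt t) / Wt t) / (1 + t * k t))) (Set.Ioo (-τ) τ) :=
    contDiffOn_const.mul
      ((sX2.sqrt (fun t ht => (X2pos t ht).ne')).div sh.contDiffOn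
        (fun t ht => (hpos t ht).ne'))
  -- the two phases are smooth functions of `s²`
  obtain ⟨G1, sG1, hG1⟩ := phase_rep (fun t : ℝ => -(σ / 2) * t *
      (Real.sqrt (Q t * Wt t / (1 - t * Wt t)) / (1 + t * k t))) φ1 τ s0 hs0 hs0τ sF1
    (fun s hs hs' => by
      have ht := (pole_mem τ s0 s hs0τ hs hs').1
      have hd := hφ1 s hs hs'
      rw [hg s hs hs', hw s hs hs', pole_phase1 k Wt Q σ s hs (hpos _ ht)] at hd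
      exact hd)
  obtain ⟨G2, sG2, hG2⟩ := phase_rep (fun t : ℝ => σ *
      (Real.sqrt (Q t * (1 - t * Wt t) / Wt t) / (1 + t * k t))) φ2 τ s0 hs0 hs0τ sF2
    (fun s hs hs' => by
      have ht := (pole_mem τ s0 s hs0τ hs hs').1
      have hd := hφ2 s hs hs'
      rw [hg s hs hs', hw s hs hs', pole_phase2 k Wt Q σ s hs (hpos _ ht) (Wpos _ ht)] at hd
      exact hd)
  -- global extensions of the two square roots
  have hs0sq : 0 < s0 ^ 2 := by positivity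
  obtain ⟨E1, sE1, hE1⟩ := exists_smooth_ext (fun t : ℝ => Real.sqrt (1 - t * Wt t)) τ
    (s0 ^ 2) hs0sq hs0τ (s1W.contDiffOn.sqrt (fun t ht => (h1W t ht).ne'))
  obtain ⟨E2, sE2, hE2⟩ := exists_smooth_ext (fun t : ℝ => Real.sqrt (Wt t)) τ
    (s0 ^ 2) hs0sq hs0τ (sWt.contDiffOn.sqrt (fun t ht => (Wpos t ht).ne'))
  refine ⟨fun t => (1 + t * k t) * E1 t * Real.cos (G1 t),
    fun t => (1 + t * k t) * E1 t * Real.sin (G1 t),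
    fun t => (1 + t * k t) / 2 * E2 t * Real.cos (G2 t),
    fun t => (1 + t * k t) / 2 * E2 t * Real.sin (G2 t),
    (sh.mul sE1).mul (Real.contDiff_cos.comp sG1), (sh.mul sE1).mul (Real.contDiff_sin.comp sG1),
    ((sh.div_const 2).mul sE2).mul (Real.contDiff_cos.comp sG2),
    ((sh.div_const 2).mul sE2).mul (Real.contDiff_sin.comp sG2), ?_⟩
  intro s hs hs'
  have hIcc := (pole_mem τ s0 s hs0τ hs hs').2
  have e1 : E1 (s ^ 2) = Real.sqrt (1 - s ^ 2 * Wt (s ^ 2)) := hE1 _ hIcc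
  have e2 : E2 (s ^ 2) = Real.sqrt (Wt (s ^ 2)) := hE2 _ hIcc
  have hsq : Real.sqrt (s ^ 2 * Wt (s ^ 2)) = s * Real.sqrt (Wt (s ^ 2)) := by
    rw [Real.sqrt_mul (sq_nonneg s), Real.sqrt_sq hs.le]
  unfold bC bS dC dS
  rw [hg s hs hs', hw s hs hs', hG1 s hs hs', hG2 s hs hs']
  unfold gvG wG
  simp only [e1, e2, hsq]
  refine ⟨by ring, by ring, by ring, by ring⟩

end Vale.Agent.H19.Sph
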