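import Vale.Agent.H19.Sph.Glue
import Vale.Agent.H19.Sph.IntAlg
import Vale.Agent.H19.Sph.Pole
import Vale.Agent.H19.Sph.Hadamard

/-!
Sphere immersions with weights `(1, 2)`: the one-dimensional profile theorem.

For a rotationally symmetric metric `ds² + g(s)² dθ²` on the sphere (`g` positive on `(0, L)`,
`g s = s h(s²)` near `0`, `g s = (L - s) hS((L - s)²)` near `L`, `h 0 = hS 0 = 1`) with negative
curvature at both poles (`h' 0 > 0`, `hS' 0 > 0`) and `|g'| < 2`, there are four functions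
`b1, b2, d1, d2`, smooth on `(0, L)`, such that `(s, θ) ↦ ((b1 + i b2) e^{iθ}, (d1 + i d2) e^{2iθ})`
is isometric, and which near the poles have the form `s a(s²)`, `s² c(s²)` with `a`, `c` smooth.
-/

namespace Vale.Agent.H19.Sph

open scoped ContDiff

/-- The defect of a function pair agreeing near `s` with the pole germ. -/
theorem Dex_eq_of_germ (k Wt Q : ℝ → ℝ) (τ cN : ℝ) (sk : ContDiff ℝ ∞ k)
    (hG : PoleGerm k Wt Q τ cN) (g w : ℝ → ℝ) (s : ℝ) (hs : 0 < s) (hsτ : s ^ 2 < τ)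
    (hg : ∀ᶠ x in nhds s, g x = gvG k x) (hw : ∀ᶠ x in nhds s, w x = wG Wt x) :
    Dex (g s) (deriv g s) (w s) (deriv w s) = s ^ 6 * Q (s ^ 2) := by
  have e1 : deriv g s = gpG k s :=
    (Filter.EventuallyEq.deriv_eq hg).trans (hasDerivAt_gvG k sk s).deriv
  have e2 : deriv w s = wpG Wt s :=
    (Filter.EventuallyEq.deriv_eq hw).trans (hasDerivAt_wG Wt hG.sWt s).deriv
  rw [hg.self_of_nhds, hw.self_of_nhds, e1, e2]
  exact hG.hD s hs hsτ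

theorem exists_profile_k (L ε : ℝ) (hL : 0 < L) (hε : 0 < ε) (g k kS : ℝ → ℝ)
    (sg : ContDiff ℝ ∞ g) (sk : ContDiff ℝ ∞ k) (skS : ContDiff ℝ ∞ kS)
    (gN : ∀ s, |s| < ε → g s = gvG k s)
    (gS : ∀ s, |s - L| < ε → g s = gvG kS (L - s))
    (k0 : 0 < k 0) (kS0 : 0 < kS 0)
    (gpos : ∀ s, 0 < s → s < L → 0 < g s)
    (gd : ∀ s, 0 ≤ s → s ≤ L → |deriv g s| < 2) :
    ∃ (b1 b2 d1 d2 aN1 aN2 cN1 cN2 aS1 aS2 cS1 cS2 : ℝ → ℝ) (δ : ℝ), 0 < δ ∧ δ < L ∧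
      ContDiffOn ℝ ∞ b1 (Set.Ioo 0 L) ∧ ContDiffOn ℝ ∞ b2 (Set.Ioo 0 L) ∧
      ContDiffOn ℝ ∞ d1 (Set.Ioo 0 L) ∧ ContDiffOn ℝ ∞ d2 (Set.Ioo 0 L) ∧
      (∀ s ∈ Set.Ioo 0 L,
        deriv b1 s ^ 2 + deriv b2 s ^ 2 + deriv d1 s ^ 2 + deriv d2 s ^ 2 = 1 ∧
        (b1 s * deriv b2 s - b2 s * deriv b1 s)
          + 2 * (d1 s * deriv d2 s - d2 s * deriv d1 s) = 0 ∧
        (b1 s ^ 2 + b2 s ^ 2) + 4 * (d1 s ^ 2 + d2 s ^ 2) = g s ^ 2) ∧
      ContDiff ℝ ∞ aN1 ∧ ContDiff ℝ ∞ aN2 ∧ ContDiff ℝ ∞ cN1 ∧ ContDiff ℝ ∞ cN2 ∧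
      ContDiff ℝ ∞ aS1 ∧ ContDiff ℝ ∞ aS2 ∧ ContDiff ℝ ∞ cS1 ∧ ContDiff ℝ ∞ cS2 ∧
      (∀ s, 0 < s → s < δ →
        b1 s = s * aN1 (s ^ 2) ∧ b2 s = s * aN2 (s ^ 2) ∧
        d1 s = s ^ 2 * cN1 (s ^ 2) ∧ d2 s = s ^ 2 * cN2 (s ^ 2)) ∧
      (∀ s, 0 < s → s < δ →
        b1 (L - s) = s * aS1 (s ^ 2) ∧ b2 (L - s) = s * aS2 (s ^ 2) ∧
        d1 (L - s) = s ^ 2 * cS1 (s ^ 2) ∧ d2 (L - s) = s ^ 2 * cS2 (s ^ 2)) := by
  obtain ⟨w, WN, QN, WS, QS, τN, cN, τS, cS, s0, hGN, hGS, hs0, hs0L, hs0ε, hs0N, hs0S, sw, hw,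
    hwN, hwS⟩ := exists_w L ε hL hε g k kS sg sk skS gN gS k0 kS0 gpos gd
  have hopen : IsOpen (Set.Ioo (0 : ℝ) L) := isOpen_Ioo
  have dg : Differentiable ℝ g := sg.differentiable (by simp)
  have sdg : ContDiff ℝ ∞ (deriv g) := (contDiff_infty_iff_deriv.mp sg).2
  have sdw : ContDiffOn ℝ ∞ (deriv w) (Set.Ioo 0 L) := sw.deriv_of_isOpen hopen (by simp)
  have hwd : ∀ s ∈ Set.Ioo 0 L, HasDerivAt w (deriv w s) s := fun s hs =>
    ((sw.contDiffAt (hopen.mem_nhds hs)).differentiableAt (by simp)).hasDerivAt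
  have c1 : ContDiffOn ℝ ∞ g (Set.Ioo 0 L) := sg.contDiffOn
  have c2 : ContDiffOn ℝ ∞ (deriv g) (Set.Ioo 0 L) := sdg.contDiffOn
  have gne : ∀ s ∈ Set.Ioo 0 L, g s ≠ 0 := fun s hs => (gpos s hs.1 hs.2).ne'
  obtain ⟨D, hD⟩ : ∃ D : ℝ → ℝ, ∀ s, D s = Dex (g s) (deriv g s) (w s) (deriv w s) :=
    ⟨_, fun _ => rfl⟩
  have hDpos : ∀ s ∈ Set.Ioo 0 L, 0 < D s := fun s hs => by rw [hD s]; exact (hw s hs).2.2
  have sD : ContDiffOn ℝ ∞ D (Set.Ioo 0 L) := by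
    have hden : ∀ s ∈ Set.Ioo 0 L, 16 * w s * (1 - w s) ≠ 0 := fun s hs => by
      have h1 := (hw s hs).1
      have h2 := (hw s hs).2.1
      have : 0 < 16 * w s * (1 - w s) := mul_pos (mul_pos (by norm_num) h1) (by linarith)
      exact this.ne'
    have cden : ContDiffOn ℝ ∞ (fun s => 16 * w s * (1 - w s)) (Set.Ioo 0 L) :=
      (contDiffOn_const.mul sw).mul (contDiffOn_const.sub sw)
    have cnum : ContDiffOn ℝ ∞ (fun s => g s ^ 2 * deriv w s ^ 2 * (1 + 3 * w s))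
        (Set.Ioo 0 L) :=
      ((c1.pow 2).mul (sdw.pow 2)).mul (contDiffOn_const.add (contDiffOn_const.mul sw))
    have ct1 : ContDiffOn ℝ ∞ (fun s => deriv g s ^ 2 * (1 - 3 * w s / 4)) (Set.Ioo 0 L) :=
      (c2.pow 2).mul (contDiffOn_const.sub ((contDiffOn_const.mul sw).div_const 4))
    have ct2 : ContDiffOn ℝ ∞ (fun s => 3 / 4 * g s * deriv g s * deriv w s) (Set.Ioo 0 L) :=
      ((contDiffOn_const.mul c1).mul c2).mul sdw
    have sD' := ((contDiffOn_const (c := (1 : ℝ))).sub ct1).add ct2 |>.sub (cnum.div cden hden)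
    refine sD'.congr (fun s _ => ?_)
    rw [hD s]
    rfl
  obtain ⟨ψ1, hψ1⟩ : ∃ ψ1 : ℝ → ℝ, ∀ s, ψ1 s = -(Real.sqrt (D s * w s / (1 - w s)) / g s) :=
    ⟨_, fun _ => rfl⟩
  obtain ⟨ψ2, hψ2⟩ : ∃ ψ2 : ℝ → ℝ, ∀ s, ψ2 s = 2 * Real.sqrt (D s * (1 - w s) / w s) / g s :=
    ⟨_, fun _ => rfl⟩
  have c1w : ContDiffOn ℝ ∞ (fun s => 1 - w s) (Set.Ioo 0 L) := contDiffOn_const.sub sw
  have sψ1 : ContDiffOn ℝ ∞ ψ1 (Set.Ioo 0 L) := by
    have hq : ContDiffOn ℝ ∞ (fun s => D s * w s / (1 - w s)) (Set.Ioo 0 L) :=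
      (sD.mul sw).div c1w (fun s hs => by have := (hw s hs).2.1; linarith)
    have hq0 : ∀ s ∈ Set.Ioo 0 L, D s * w s / (1 - w s) ≠ 0 := fun s hs => by
      have h1 := (hw s hs).1
      have h2 := (hw s hs).2.1
      have h3 := hDpos s hs
      have : 0 < D s * w s / (1 - w s) := div_pos (mul_pos h3 h1) (by linarith)
      exact this.ne'
    have := ((hq.sqrt hq0).div c1 gne).neg
    exact this.congr (fun s _ => hψ1 s)
  have sψ2 : ContDiffOn ℝ ∞ ψ2 (Set.Ioo 0 L) := by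
    have hq : ContDiffOn ℝ ∞ (fun s => D s * (1 - w s) / w s) (Set.Ioo 0 L) :=
      (sD.mul c1w).div sw (fun s hs => ((hw s hs).1).ne')
    have hq0 : ∀ s ∈ Set.Ioo 0 L, D s * (1 - w s) / w s ≠ 0 := fun s hs => by
      have h1 := (hw s hs).1
      have h2 := (hw s hs).2.1
      have h3 := hDpos s hs
      have : 0 < D s * (1 - w s) / w s := div_pos (mul_pos h3 (by linarith)) h1
      exact this.ne'
    have := ((contDiffOn_const (c := (2 : ℝ))).mul (hq.sqrt hq0)).div c1 gne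
    exact this.congr (fun s _ => hψ2 s)
  obtain ⟨φ1, sφ1, hφ1⟩ := exists_prim_on ψ1 0 L hL sψ1
  obtain ⟨φ2, sφ2, hφ2⟩ := exists_prim_on ψ2 0 L hL sψ2
  have hr1 : ContDiffOn ℝ ∞ (fun s => g s * Real.sqrt (1 - w s)) (Set.Ioo 0 L) :=
    c1.mul (c1w.sqrt (fun s hs => by have := (hw s hs).2.1; linarith))
  have hr2 : ContDiffOn ℝ ∞ (fun s => g s / 2 * Real.sqrt (w s)) (Set.Ioo 0 L) :=
    (c1.div_const 2).mul (sw.sqrt (fun s hs => ((hw s hs).1).ne'))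
  have sb1 : ContDiffOn ℝ ∞ (bC g w φ1) (Set.Ioo 0 L) :=
    hr1.mul (Real.contDiff_cos.comp_contDiffOn sφ1)
  have sb2 : ContDiffOn ℝ ∞ (bS g w φ1) (Set.Ioo 0 L) :=
    hr1.mul (Real.contDiff_sin.comp_contDiffOn sφ1)
  have sd1 : ContDiffOn ℝ ∞ (dC g w φ2) (Set.Ioo 0 L) :=
    hr2.mul (Real.contDiff_cos.comp_contDiffOn sφ2)
  have sd2 : ContDiffOn ℝ ∞ (dS g w φ2) (Set.Ioo 0 L) :=
    hr2.mul (Real.contDiff_sin.comp_contDiffOn sφ2)
  -- the zone near the north pole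
  have hsq : ∀ s, 0 < s → s < s0 → s ^ 2 < s0 ^ 2 := fun s hs hss0 => by nlinarith
  have evN : ∀ s, 0 < s → s < s0 → ∀ᶠ x in nhds s, g x = gvG k x := fun s hs hss0 => by
    have hmem : {x : ℝ | |x| < ε} ∈ nhds s :=
      (isOpen_lt continuous_abs continuous_const).mem_nhds
        (by simp only [Set.mem_setOf_eq]; rw [abs_of_pos hs]; linarith)
    exact Filter.mem_of_superset hmem (fun x hx => gN x hx)
  have evNw : ∀ s, 0 < s → s < s0 → ∀ᶠ x in nhds s, w x = wG WN x := fun s hs hss0 => by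
    have hmem : Set.Ioo (0 : ℝ) s0 ∈ nhds s := isOpen_Ioo.mem_nhds ⟨hs, hss0⟩
    exact Filter.mem_of_superset hmem (fun x hx => hwN x hx.1 hx.2)
  have hDN : ∀ s, 0 < s → s < s0 → D s = s ^ 6 * QN (s ^ 2) := fun s hs hss0 => by
    rw [hD s]
    exact Dex_eq_of_germ k WN QN τN cN sk hGN g w s hs (lt_trans (hsq s hs hss0) hs0N)
      (evN s hs hss0) (evNw s hs hss0)
  obtain ⟨aN1, aN2, cN1, cN2, saN1, saN2, scN1, scN2, hNrep⟩ :=
    pole_rep k WN QN τN cN sk hGN g w φ1 φ2 1 s0 hs0 hs0N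
      (fun s hs hss0 => (evN s hs hss0).self_of_nhds)
      (fun s hs hss0 => hwN s hs hss0)
      (fun s hs hss0 => by
        have h := hφ1 s ⟨hs, lt_trans hss0 hs0L⟩
        rw [hψ1 s, hDN s hs hss0] at h
        rw [one_mul]
        exact h)
      (fun s hs hss0 => by
        have h := hφ2 s ⟨hs, lt_trans hss0 hs0L⟩
        rw [hψ2 s, hDN s hs hss0] at h
        rw [one_mul]
        exact h)
  -- the zone near the south pole, in the reflected variable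
  have evS : ∀ s, 0 < s → s < s0 → ∀ᶠ x in nhds s, g (L - x) = gvG kS x := fun s hs hss0 => by
    have hmem : {x : ℝ | |x| < ε} ∈ nhds s :=
      (isOpen_lt continuous_abs continuous_const).mem_nhds
        (by simp only [Set.mem_setOf_eq]; rw [abs_of_pos hs]; linarith)
    refine Filter.mem_of_superset hmem (fun x hx => ?_)
    have hx' : |L - x - L| < ε := by
      have : L - x - L = -x := by ring
      rw [this, abs_neg]
      exact hx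
    have := gS (L - x) hx'
    rw [sub_sub_cancel] at this
    exact this
  have evSw : ∀ s, 0 < s → s < s0 → ∀ᶠ x in nhds s, w (L - x) = wG WS x := fun s hs hss0 => by
    have hmem : Set.Ioo (0 : ℝ) s0 ∈ nhds s := isOpen_Ioo.mem_nhds ⟨hs, hss0⟩
    exact Filter.mem_of_superset hmem (fun x hx => hwS x hx.1 hx.2)
  have hDS : ∀ s, 0 < s → s < s0 → D (L - s) = s ^ 6 * QS (s ^ 2) := fun s hs hss0 => by
    have h := Dex_eq_of_germ kS WS QS τS cS skS hGS (fun x => g (L - x)) (fun x => w (L - x)) s hs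
      (lt_trans (hsq s hs hss0) hs0S) (evS s hs hss0) (evSw s hs hss0)
    rw [deriv_comp_const_sub, deriv_comp_const_sub, Dex_neg] at h
    rw [hD (L - s)]
    exact h
  have hLs : ∀ s, 0 < s → s < s0 → L - s ∈ Set.Ioo 0 L := fun s hs hss0 =>
    ⟨by linarith, by linarith⟩
  obtain ⟨aS1, aS2, cS1, cS2, saS1, saS2, scS1, scS2, hSrep⟩ :=
    pole_rep kS WS QS τS cS skS hGS (fun x => g (L - x)) (fun x => w (L - x))
      (fun x => φ1 (L - x)) (fun x => φ2 (L - x)) (-1) s0 hs0 hs0S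
      (fun s hs hss0 => (evS s hs hss0).self_of_nhds)
      (fun s hs hss0 => hwS s hs hss0)
      (fun s hs hss0 => by
        have h := hφ1 (L - s) (hLs s hs hss0)
        rw [hψ1 (L - s), hDS s hs hss0] at h
        have h2 := h.comp s ((hasDerivAt_id s).const_sub L)
        have e : -(Real.sqrt (s ^ 6 * QS (s ^ 2) * w (L - s) / (1 - w (L - s))) / g (L - s)) * -1
            = -1 * -(Real.sqrt (s ^ 6 * QS (s ^ 2) * w (L - s) / (1 - w (L - s))) / g (L - s)) := by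
          ring
        rw [e] at h2
        exact h2)
      (fun s hs hss0 => by
        have h := hφ2 (L - s) (hLs s hs hss0)
        rw [hψ2 (L - s), hDS s hs hss0] at h
        have h2 := h.comp s ((hasDerivAt_id s).const_sub L)
        have e : 2 * Real.sqrt (s ^ 6 * QS (s ^ 2) * (1 - w (L - s)) / w (L - s)) / g (L - s) * -1
            = -1 * (2 * Real.sqrt (s ^ 6 * QS (s ^ 2) * (1 - w (L - s)) / w (L - s)) / g (L - s)) := by
          ring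
        rw [e] at h2
        exact h2)
  refine ⟨bC g w φ1, bS g w φ1, dC g w φ2, dS g w φ2, aN1, aN2, cN1, cN2, aS1, aS2, cS1, cS2, s0,
    hs0, hs0L, sb1, sb2, sd1, sd2, ?_, saN1, saN2, scN1, scN2, saS1, saS2, scS1, scS2, ?_, ?_⟩
  · intro s hs
    have h1 := hφ1 s hs
    have h2 := hφ2 s hs
    rw [hψ1 s, hD s] at h1
    rw [hψ2 s, hD s] at h2
    exact int_alg g w φ1 φ2 s (deriv g s) (deriv w s) (dg s).hasDerivAt (hwd s hs)
      (gpos s hs.1 hs.2) (hw s hs).1 (hw s hs).2.1 (hw s hs).2.2 h1 h2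
  · intro s hs hss0
    exact hNrep s hs hss0
  · intro s hs hss0
    exact hSrep s hs hss0

theorem exists_profile (L ε : ℝ) (hL : 0 < L) (hε : 0 < ε) (g h hS : ℝ → ℝ)
    (sg : ContDiff ℝ ∞ g) (sh : ContDiff ℝ ∞ h) (shS : ContDiff ℝ ∞ hS)
    (gN : ∀ s, |s| < ε → g s = s * h (s ^ 2))
    (gS : ∀ s, |s - L| < ε → g s = (L - s) * hS ((L - s) ^ 2))
    (h0 : h 0 = 1) (hS0 : hS 0 = 1)
    (gpos : ∀ s, 0 < s → s < L → 0 < g s)
    (dh : 0 < deriv h 0) (dhS : 0 < deriv hS 0)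
    (gd : ∀ s, 0 ≤ s → s ≤ L → |deriv g s| < 2) :
    ∃ (b1 b2 d1 d2 aN1 aN2 cN1 cN2 aS1 aS2 cS1 cS2 : ℝ → ℝ) (δ : ℝ), 0 < δ ∧ δ < L ∧
      ContDiffOn ℝ ∞ b1 (Set.Ioo 0 L) ∧ ContDiffOn ℝ ∞ b2 (Set.Ioo 0 L) ∧
      ContDiffOn ℝ ∞ d1 (Set.Ioo 0 L) ∧ ContDiffOn ℝ ∞ d2 (Set.Ioo 0 L) ∧
      (∀ s ∈ Set.Ioo 0 L,
        deriv b1 s ^ 2 + deriv b2 s ^ 2 + deriv d1 s ^ 2 + deriv d2 s ^ 2 = 1 ∧
        (b1 s * deriv b2 s - b2 s * deriv b1 s)
          + 2 * (d1 s * deriv d2 s - d2 s * deriv d1 s) = 0 ∧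
        (b1 s ^ 2 + b2 s ^ 2) + 4 * (d1 s ^ 2 + d2 s ^ 2) = g s ^ 2) ∧
      ContDiff ℝ ∞ aN1 ∧ ContDiff ℝ ∞ aN2 ∧ ContDiff ℝ ∞ cN1 ∧ ContDiff ℝ ∞ cN2 ∧
      ContDiff ℝ ∞ aS1 ∧ ContDiff ℝ ∞ aS2 ∧ ContDiff ℝ ∞ cS1 ∧ ContDiff ℝ ∞ cS2 ∧
      (∀ s, 0 < s → s < δ →
        b1 s = s * aN1 (s ^ 2) ∧ b2 s = s * aN2 (s ^ 2) ∧
        d1 s = s ^ 2 * cN1 (s ^ 2) ∧ d2 s = s ^ 2 * cN2 (s ^ 2)) ∧
      (∀ s, 0 < s → s < δ →
        b1 (L - s) = s * aS1 (s ^ 2) ∧ b2 (L - s) = s * aS2 (s ^ 2) ∧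
        d1 (L - s) = s ^ 2 * cS1 (s ^ 2) ∧ d2 (L - s) = s ^ 2 * cS2 (s ^ 2)) := by
  obtain ⟨k, sk, hk⟩ := hadamard h sh
  obtain ⟨kS, skS, hkS⟩ := hadamard hS shS
  have key : ∀ (f q : ℝ → ℝ), ContDiff ℝ ∞ q → (∀ t, f t = f 0 + t * q t) → q 0 = deriv f 0 := by
    intro f q sq hq
    have dq : Differentiable ℝ q := sq.differentiable (by simp)
    have h1 : HasDerivAt (fun t : ℝ => f 0 + t * q t) (1 * q 0 + 0 * deriv q 0) 0 :=
      ((hasDerivAt_id (0 : ℝ)).mul (dq 0).hasDerivAt).const_add (f 0)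
    have e : f = fun t : ℝ => f 0 + t * q t := funext hq
    rw [← e] at h1
    rw [h1.deriv]
    ring
  have k0 : 0 < k 0 := by rw [key h k sk hk]; exact dh
  have kS0 : 0 < kS 0 := by rw [key hS kS skS hkS]; exact dhS
  refine exists_profile_k L ε hL hε g k kS sg sk skS ?_ ?_ k0 kS0 gpos gd
  · intro s hs
    rw [gN s hs, hk (s ^ 2), h0]
    rfl
  · intro s hs
    rw [gS s hs, hkS ((L - s) ^ 2), hS0]
    rfl

end Vale.Agent.H19.Sph
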